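import Vale.Agent.H90.KTV.Abs

/-!
Transfer of class averages along an injective map whose range is a union of classes.

`X`, `Y` finite types, `Φ : X → Y` injective, `r` a relation on `X`, `s` a symmetric relation
on `Y` such that `r x x' ↔ s (Φ x) (Φ x')` and every `s`-neighbour of a point of the range of
`Φ` is in the range.  Then extension by zero along `Φ` intertwines the averaging operators.
-/

namespace Vale.Agent.H37.KTV

open Finset Vale.Agent.H90

set_option linter.unusedSectionVars false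

section Transfer

variable {X Y : Type*} [Fintype X] [Fintype Y]

/-- extension by zero of `f` along `Φ` -/
noncomputable def ext0 (Φ : X → Y) (f : X → ℝ) : Y → ℝ := by
  classical
  exact fun y => if h : ∃ x, Φ x = y then f (Classical.choose h) else 0

theorem ext0_apply (Φ : X → Y) (hΦ : Function.Injective Φ) (f : X → ℝ) (x : X) :
    ext0 Φ f (Φ x) = f x := by
  classical
  unfold ext0
  have h : ∃ x', Φ x' = Φ x := ⟨x, rfl⟩
  rw [dif_pos h]
  exact congrArg f (hΦ (Classical.choose_spec h))

theorem ext0_of_not_range (Φ : X → Y) (f : X → ℝ) (y : Y) (hy : ¬ ∃ x, Φ x = y) :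
    ext0 Φ f y = 0 := by
  classical
  unfold ext0
  rw [dif_neg hy]

theorem ext0_add (Φ : X → Y) (f g : X → ℝ) : ext0 Φ (f + g) = ext0 Φ f + ext0 Φ g := by
  classical
  funext y
  unfold ext0
  by_cases h : ∃ x, Φ x = y
  · simp only [Pi.add_apply, dif_pos h]
  · simp only [Pi.add_apply, dif_neg h, add_zero]

theorem ext0_sub (Φ : X → Y) (f g : X → ℝ) : ext0 Φ (f - g) = ext0 Φ f - ext0 Φ g := by
  classical
  funext y
  unfold ext0
  by_cases h : ∃ x, Φ x = y
  · simp only [Pi.sub_apply, dif_pos h]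
  · simp only [Pi.sub_apply, dif_neg h, sub_zero]

theorem ext0_smul (Φ : X → Y) (c : ℝ) (f : X → ℝ) : ext0 Φ (c • f) = c • ext0 Φ f := by
  classical
  funext y
  unfold ext0
  by_cases h : ∃ x, Φ x = y
  · simp only [Pi.smul_apply, dif_pos h]
  · simp only [Pi.smul_apply, dif_neg h, smul_zero]

/-- a sum over `Y` of a function vanishing off the range of `Φ` is a sum over `X` -/
theorem sum_eq_sum_of_range (Φ : X → Y) (hΦ : Function.Injective Φ) (F : Y → ℝ)
    (hF : ∀ y, (¬ ∃ x, Φ x = y) → F y = 0) : ∑ y, F y = ∑ x, F (Φ x) := by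
  classical
  rw [← Finset.sum_image (s := (univ : Finset X)) (g := Φ) (f := F) (fun a _ b _ h => hΦ h)]
  symm
  apply Finset.sum_subset (Finset.subset_univ _)
  intro y _ hy
  apply hF
  rintro ⟨x, rfl⟩
  exact hy (Finset.mem_image_of_mem _ (Finset.mem_univ x))

theorem dot_ext0 (Φ : X → Y) (hΦ : Function.Injective Φ) (f g : X → ℝ) :
    dot (ext0 Φ f) (ext0 Φ g) = dot f g := by
  unfold dot
  rw [sum_eq_sum_of_range Φ hΦ (fun y => ext0 Φ f y * ext0 Φ g y)]
  · refine Finset.sum_congr rfl (fun x _ => ?_)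
    rw [ext0_apply Φ hΦ, ext0_apply Φ hΦ]
  · intro y hy
    rw [ext0_of_not_range Φ f y hy, zero_mul]

variable (r : X → X → Prop) [DecidableRel r] (s : Y → Y → Prop) [DecidableRel s]

/-- the averaging operators are intertwined by extension by zero -/
theorem avgRel_ext0 (Φ : X → Y) (hΦ : Function.Injective Φ)
    (hs : ∀ y y', s y y' → s y' y)
    (hrs : ∀ x x', r x x' ↔ s (Φ x) (Φ x'))
    (hrange : ∀ x y, s (Φ x) y → ∃ x', Φ x' = y) (f : X → ℝ) :
    avgRel s (ext0 Φ f) = ext0 Φ (avgRel r f) := by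
  classical
  funext y
  by_cases hy : ∃ x, Φ x = y
  · obtain ⟨x, rfl⟩ := hy
    rw [ext0_apply Φ hΦ]
    unfold avgRel
    have himg : univ.filter (fun y => s (Φ x) y) = (univ.filter (fun x' => r x x')).image Φ := by
      ext y
      simp only [mem_filter, mem_univ, true_and, mem_image]
      constructor
      · intro h
        obtain ⟨x', rfl⟩ := hrange x y h
        exact ⟨x', (hrs x x').2 h, rfl⟩
      · rintro ⟨x', hx', rfl⟩
        exact (hrs x x').1 hx'
    rw [himg, Finset.sum_image (fun a _ b _ h => hΦ h),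
      Finset.card_image_of_injective _ hΦ]
    congr 1
    exact Finset.sum_congr rfl (fun x' _ => ext0_apply Φ hΦ f x')
  · rw [ext0_of_not_range Φ _ y hy]
    unfold avgRel
    have hz : ∑ y' ∈ univ.filter (fun y' => s y y'), ext0 Φ f y' = 0 := by
      apply Finset.sum_eq_zero
      intro y' hy'
      simp only [mem_filter, mem_univ, true_and] at hy'
      apply ext0_of_not_range
      rintro ⟨x', rfl⟩
      exact hy (hrange x' y (hs _ _ hy'))
    rw [hz, zero_div]

/-- `f - avgRel r f` is intertwined as well -/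
theorem q_ext0 (Φ : X → Y) (hΦ : Function.Injective Φ)
    (hs : ∀ y y', s y y' → s y' y)
    (hrs : ∀ x x', r x x' ↔ s (Φ x) (Φ x'))
    (hrange : ∀ x y, s (Φ x) y → ∃ x', Φ x' = y) (f : X → ℝ) :
    ext0 Φ f - avgRel s (ext0 Φ f) = ext0 Φ (f - avgRel r f) := by
  rw [avgRel_ext0 r s Φ hΦ hs hrs hrange, ext0_sub]

end Transfer

end Vale.Agent.H37.KTV
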