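import Vale.Agent.H37.KTV.TriBip
import Vale.Agent.H62.KTV.TripleRange

/-!
The vertex-triple inequality for simple graphs (board row R3), by transfer of the three-row
lemma for Boolean matrices along the triple matrix map.
-/

namespace Vale.Agent.H37.KTV

open Finset SimpleGraph
open scoped Classical
open Vale.Agent.H90 (dot avgRel)
open Vale.Agent.H40.KTV

variable {V : Type} [Fintype V]

/-- **Vertex-triple inequality** `K_t^2 ≥ K_t` for the pair projections of simple graphs. -/
theorem tri (u v w : V) (huv : u ≠ v) (hvw : v ≠ w) (huw : u ≠ w) (f : SimpleGraph V → ℝ) :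
    0 ≤ dot (QP u v f) (QP v w f) + dot (QP u v f) (QP u w f) + dot (QP v w f) (QP u w f) :=
  tri_of_range
    (fun a b c hab hbc hac => Vale.Agent.H62.tmap_injective a b c hab hbc hac)
    (fun a b c hab hbc hac G M h => Vale.Agent.H62.tmap_range a b c hab hbc hac G M h)
    u v w huv hvw huw f

end Vale.Agent.H37.KTV
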