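import Vale.Agent.H37.KTV.TriOf
import Vale.Agent.H90.KTV.G3

/-!
The vertex-triple inequality for simple graphs from the three-row lemma for Boolean matrices
(`Vale.Agent.H90.g3_cyclic`), given injectivity and range closure of the triple matrix map.
-/

namespace Vale.Agent.H37.KTV

open Finset SimpleGraph
open scoped Classical
open Vale.Agent.H90 (dot avgRel RelP SameMarg rowSum colSum)
open Vale.Agent.H40.KTV

/-- the three-row inequality for Boolean matrices, in the form used by `tri_of` -/
theorem bip3 {R C : Type*} [Fintype R] [DecidableEq R] [Fintype C] [DecidableEq C]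
    (i j k : R) (hij : i ≠ j) (hjk : j ≠ k) (hik : i ≠ k) (g : (R → C → Bool) → ℝ) :
    0 ≤ dot (g - avgRel (RelP i j) g) (g - avgRel (RelP j k) g)
      + dot (g - avgRel (RelP i j) g) (g - avgRel (RelP i k) g)
      + dot (g - avgRel (RelP j k) g) (g - avgRel (RelP i k) g) := by
  have h := Vale.Agent.H90.g3_cyclic i j k hij hjk hik g
  unfold Vale.Agent.H90.Qrel at h
  have hki : avgRel (RelP k i) g = avgRel (RelP i k) g :=
    Vale.Agent.H90.avgRel_congr _ _ (fun G H => Vale.Agent.H90.relP_comm k i G H) g
  rw [hki] at h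
  rw [Vale.Agent.H90.dot_comm (g - avgRel (RelP i k) g) (g - avgRel (RelP i j) g)] at h
  linarith

variable {V : Type} [Fintype V]

/-- **Vertex-triple inequality**, given injectivity and range closure of `tmap`. -/
theorem tri_of_range
    (hinj : ∀ (a b c : V), a ≠ b → b ≠ c → a ≠ c → Function.Injective (tmap a b c))
    (hrange : ∀ (a b c : V), a ≠ b → b ≠ c → a ≠ c → ∀ (G : SimpleGraph V)
      (M : V → Option V → Bool), RelP a b (tmap a b c G) M → ∃ H, tmap a b c H = M)
    (u v w : V) (huv : u ≠ v) (hvw : v ≠ w) (huw : u ≠ w) (f : SimpleGraph V → ℝ) :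
    0 ≤ dot (QP u v f) (QP v w f) + dot (QP u v f) (QP u w f) + dot (QP v w f) (QP u w f) :=
  tri_of hinj hrange (fun i j k hij hjk hik g => bip3 i j k hij hjk hik g) u v w huv hvw huw f

end Vale.Agent.H37.KTV
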