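import Vale.Agent.H37.KTV.TripleRel
import Vale.Agent.H37.KTV.Transfer

/-!
The vertex-triple inequality for simple graphs, from the three-row inequality for Boolean
matrices (hypotheses-form): the triple matrix map `tmap u v w` is injective, its range is
closed under the three row-pair fibre relations, and it carries the pair fibres of
`{u, v}`, `{v, w}`, `{u, w}` to the row-pair fibres of the corresponding rows.
-/

namespace Vale.Agent.H37.KTV

open Finset SimpleGraph
open scoped Classical
open Vale.Agent.H90 (dot avgRel RelP SameMarg rowSum colSum)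
open Vale.Agent.H40.KTV

variable {V : Type} [Fintype V]

/-- **Vertex-triple inequality from the three-row inequality** (hypotheses-form). -/
theorem tri_of
    (hinj : ∀ (a b c : V), a ≠ b → b ≠ c → a ≠ c → Function.Injective (tmap a b c))
    (hrange : ∀ (a b c : V), a ≠ b → b ≠ c → a ≠ c → ∀ (G : SimpleGraph V)
      (M : V → Option V → Bool), RelP a b (tmap a b c G) M → ∃ H, tmap a b c H = M)
    (hbip : ∀ (i j k : V), i ≠ j → j ≠ k → i ≠ k → ∀ g : (V → Option V → Bool) → ℝ,
      0 ≤ dot (g - avgRel (RelP i j) g) (g - avgRel (RelP j k) g)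
        + dot (g - avgRel (RelP i j) g) (g - avgRel (RelP i k) g)
        + dot (g - avgRel (RelP j k) g) (g - avgRel (RelP i k) g))
    (u v w : V) (huv : u ≠ v) (hvw : v ≠ w) (huw : u ≠ w) (f : SimpleGraph V → ℝ) :
    0 ≤ dot (QP u v f) (QP v w f) + dot (QP u v f) (QP u w f) + dot (QP v w f) (QP u w f) := by
  have hi := hinj u v w huv hvw huw
  have hsymm : ∀ (i j : V) (y y' : V → Option V → Bool), RelP i j y y' → RelP i j y' y :=
    fun i j y y' h => Vale.Agent.H90.relP_symm h
  -- pair (u, v)
  have q1 : ext0 (tmap u v w) f - avgRel (RelP u v) (ext0 (tmap u v w) f)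
      = ext0 (tmap u v w) (QP u v f) :=
    q_ext0 (RP u v) (RelP u v) (tmap u v w) hi (hsymm u v)
      (fun G H => tmap_rel u v w huv hvw huw G H)
      (fun G M h => hrange u v w huv hvw huw G M h) f
  -- pair (v, w)
  have q2 : ext0 (tmap u v w) f - avgRel (RelP v w) (ext0 (tmap u v w) f)
      = ext0 (tmap u v w) (QP v w f) := by
    refine q_ext0 (RP v w) (RelP v w) (tmap u v w) hi (hsymm v w) (fun G H => ?_)
      (fun G M h => ?_) f
    · rw [← tmap_rot u v w G, ← tmap_rot u v w H]
      exact tmap_rel v w u hvw huw.symm huv.symm G H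
    · rw [← tmap_rot u v w G] at h
      obtain ⟨H, hH⟩ := hrange v w u hvw huw.symm huv.symm G M h
      exact ⟨H, by rw [← tmap_rot u v w H]; exact hH⟩
  -- pair (u, w)
  have q3 : ext0 (tmap u v w) f - avgRel (RelP u w) (ext0 (tmap u v w) f)
      = ext0 (tmap u v w) (QP u w f) := by
    refine q_ext0 (RP u w) (RelP u w) (tmap u v w) hi (hsymm u w) (fun G H => ?_)
      (fun G M h => ?_) f
    · rw [← tmap_swap23 u v w G, ← tmap_swap23 u v w H]
      exact tmap_rel u w v huw hvw.symm huv G H
    · rw [← tmap_swap23 u v w G] at h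
      obtain ⟨H, hH⟩ := hrange u w v huw hvw.symm huv G M h
      exact ⟨H, by rw [← tmap_swap23 u v w H]; exact hH⟩
  have key := hbip u v w huv hvw huw (ext0 (tmap u v w) f)
  rw [q1, q2, q3, dot_ext0 _ hi, dot_ext0 _ hi, dot_ext0 _ hi] at key
  exact key

end Vale.Agent.H37.KTV
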