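import Vale.Agent.H40.KTV.GDefs
import Vale.Agent.H90.KTV.Basic

/-!
The Boolean matrix of a simple graph relative to a vertex triple `{a, b, c}`:
rows = all vertices, columns = all vertices plus one virtual column (`none`).
The entry of row `r` in the column of `x` is the edge `r x` if `x` is outside the triple
(and `false` for `x` in the triple); the virtual entry of a row of the triple is the
ABSENCE of the opposite edge of the triple (rows outside the triple have virtual entry `false`).
-/

namespace Vale.Agent.H37.KTV

open Finset SimpleGraph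
open scoped Classical
open Vale.Agent.H90 (dot avgRel RelP SameMarg rowSum colSum)
open Vale.Agent.H40.KTV

variable {V : Type} [Fintype V]

/-- the Boolean matrix of a graph relative to the vertex triple `{a, b, c}` -/
noncomputable def tmap (a b c : V) (G : SimpleGraph V) : V → Option V → Bool :=
  fun r col => match col with
    | some x => decide (G.Adj r x ∧ x ≠ a ∧ x ≠ b ∧ x ≠ c)
    | none => decide ((r = a ∧ ¬ G.Adj b c) ∨ (r = b ∧ ¬ G.Adj a c) ∨ (r = c ∧ ¬ G.Adj a b))

omit [Fintype V] in
theorem tmap_some (a b c : V) (G : SimpleGraph V) (r x : V) :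
    tmap a b c G r (some x) = true ↔ (G.Adj r x ∧ x ≠ a ∧ x ≠ b ∧ x ≠ c) := by
  simp [tmap]

omit [Fintype V] in
theorem tmap_none (a b c : V) (G : SimpleGraph V) (r : V) :
    tmap a b c G r none = true ↔
      ((r = a ∧ ¬ G.Adj b c) ∨ (r = b ∧ ¬ G.Adj a c) ∨ (r = c ∧ ¬ G.Adj a b)) := by
  simp [tmap]

omit [Fintype V] in
/-- two Boolean matrices are equal iff they have the same `true` entries -/
theorem bmat_ext {M N : V → Option V → Bool}
    (h : ∀ r col, M r col = true ↔ N r col = true) : M = N := by
  funext r col
  exact Bool.eq_iff_iff.mpr (h r col)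

omit [Fintype V] in
theorem tmap_rot (a b c : V) (G : SimpleGraph V) : tmap b c a G = tmap a b c G := by
  apply bmat_ext
  intro r col
  cases col with
  | none =>
    rw [tmap_none, tmap_none]
    have h1 : G.Adj c a ↔ G.Adj a c := ⟨fun h => h.symm, fun h => h.symm⟩
    have h2 : G.Adj b a ↔ G.Adj a b := ⟨fun h => h.symm, fun h => h.symm⟩
    rw [h1, h2]
    tauto
  | some x =>
    rw [tmap_some, tmap_some]
    tauto

omit [Fintype V] in
theorem tmap_swap23 (a b c : V) (G : SimpleGraph V) : tmap a c b G = tmap a b c G := by
  apply bmat_ext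
  intro r col
  cases col with
  | none =>
    rw [tmap_none, tmap_none]
    have h1 : G.Adj c b ↔ G.Adj b c := ⟨fun h => h.symm, fun h => h.symm⟩
    rw [h1]
    tauto
  | some x =>
    rw [tmap_some, tmap_some]
    tauto

end Vale.Agent.H37.KTV
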