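import Vale.Agent.H37.KTV.TripleMap

/-!
Margins of the triple matrix `tmap a b c G` in terms of the degrees of `G`, and the
correspondence between the pair fibre `RP a b` and the row-pair fibre `RelP a b`.
-/

namespace Vale.Agent.H37.KTV

open Finset SimpleGraph
open scoped Classical
open Vale.Agent.H90 (dot avgRel RelP SameMarg rowSum colSum)
open Vale.Agent.H40.KTV

variable {V : Type} [Fintype V]

/-- integer indicator of an edge -/
noncomputable def ind (G : SimpleGraph V) (x y : V) : ℤ := if G.Adj x y then 1 else 0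

/-- number of neighbours of `r` outside the triple -/
noncomputable def outDeg (a b c : V) (G : SimpleGraph V) (r : V) : ℤ :=
  ∑ x, if (G.Adj r x ∧ x ≠ a ∧ x ≠ b ∧ x ≠ c) then (1 : ℤ) else 0

omit [Fintype V] in
theorem ind_symm (G : SimpleGraph V) (x y : V) : ind G x y = ind G y x := by
  unfold ind
  by_cases h : G.Adj x y
  · rw [if_pos h, if_pos h.symm]
  · rw [if_neg h, if_neg (fun h' => h h'.symm)]

omit [Fintype V] in
theorem ind_self (G : SimpleGraph V) (x : V) : ind G x x = 0 := by
  unfold ind
  rw [if_neg (G.loopless.irrefl x)]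

omit [Fintype V] in
theorem ind_eq_iff (G H : SimpleGraph V) (x y x' y' : V) :
    ind G x y = ind H x' y' ↔ (G.Adj x y ↔ H.Adj x' y') := by
  unfold ind
  by_cases h : G.Adj x y <;> by_cases h' : H.Adj x' y' <;> simp [h, h']

omit [Fintype V] in
theorem ind_cases (G : SimpleGraph V) (x y : V) : ind G x y = 0 ∨ ind G x y = 1 := by
  unfold ind
  by_cases h : G.Adj x y
  · right; rw [if_pos h]
  · left; rw [if_neg h]

/-- the degree as a sum of indicators (for any `Fintype` instance on the neighbour set) -/
theorem degree_eq_sum (G : SimpleGraph V) (r : V) [Fintype (G.neighborSet r)] :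
    (G.degree r : ℤ) = ∑ x, ind G r x := by
  have h1 : G.neighborFinset r = univ.filter (fun x => G.Adj r x) := by
    ext x
    simp
  rw [← SimpleGraph.card_neighborFinset_eq_degree, h1, Finset.card_filter]
  push_cast
  rfl

/-- degree = neighbours outside the triple + the three indicators -/
theorem degree_split (a b c : V) (hab : a ≠ b) (hbc : b ≠ c) (hac : a ≠ c)
    (G : SimpleGraph V) (r : V) [Fintype (G.neighborSet r)] :
    (G.degree r : ℤ) = outDeg a b c G r + ind G r a + ind G r b + ind G r c := by
  rw [degree_eq_sum]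
  have hpt : ∀ x, ind G r x = (if (G.Adj r x ∧ x ≠ a ∧ x ≠ b ∧ x ≠ c) then (1 : ℤ) else 0)
      + (if x = a then ind G r a else 0) + (if x = b then ind G r b else 0)
      + (if x = c then ind G r c else 0) := by
    intro x
    by_cases hxa : x = a
    · subst hxa
      simp [hab, hac]
    · by_cases hxb : x = b
      · subst hxb
        simp [hbc, hxa]
      · by_cases hxc : x = c
        · subst hxc
          simp [hxa, hxb]
        · simp only [hxa, hxb, hxc, if_false, add_zero, ne_eq, not_false_eq_true, and_true]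
          rfl
  rw [Finset.sum_congr rfl (fun x _ => hpt x)]
  simp only [Finset.sum_add_distrib, Finset.sum_ite_eq', Finset.mem_univ, if_true]
  rfl

/-! ### Margins of the triple matrix -/

theorem rowSum_tmap (a b c : V) (G : SimpleGraph V) (r : V) :
    (rowSum (tmap a b c G) r : ℤ)
      = outDeg a b c G r + (if tmap a b c G r none = true then (1 : ℤ) else 0) := by
  rw [Vale.Agent.H90.rowSum_eq_sum, Fintype.sum_option]
  push_cast
  rw [add_comm]
  congr 1
  unfold outDeg
  refine Finset.sum_congr rfl (fun x _ => ?_)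
  by_cases h : (G.Adj r x ∧ x ≠ a ∧ x ≠ b ∧ x ≠ c)
  · rw [if_pos h, if_pos ((tmap_some a b c G r x).2 h)]
  · rw [if_neg h, if_neg (fun h' => h ((tmap_some a b c G r x).1 h'))]

omit [Fintype V] in
theorem virt_a (a b c : V) (hab : a ≠ b) (hac : a ≠ c) (G : SimpleGraph V) :
    (if tmap a b c G a none = true then (1 : ℤ) else 0) = 1 - ind G b c := by
  have h : tmap a b c G a none = true ↔ ¬ G.Adj b c := by
    rw [tmap_none]
    constructor
    · rintro (⟨-, h⟩ | ⟨h, -⟩ | ⟨h, -⟩)
      · exact h
      · exact absurd h hab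
      · exact absurd h hac
    · intro h; exact Or.inl ⟨rfl, h⟩
  unfold ind
  by_cases hbc : G.Adj b c
  · rw [if_neg (fun h' => (h.1 h') hbc), if_pos hbc]; ring
  · rw [if_pos (h.2 hbc), if_neg hbc]; ring

omit [Fintype V] in
theorem virt_b (a b c : V) (hab : a ≠ b) (hbc : b ≠ c) (G : SimpleGraph V) :
    (if tmap a b c G b none = true then (1 : ℤ) else 0) = 1 - ind G a c := by
  have h : tmap a b c G b none = true ↔ ¬ G.Adj a c := by
    rw [tmap_none]
    constructor
    · rintro (⟨h, -⟩ | ⟨-, h⟩ | ⟨h, -⟩)
      · exact absurd h.symm hab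
      · exact h
      · exact absurd h hbc
    · intro h; exact Or.inr (Or.inl ⟨rfl, h⟩)
  unfold ind
  by_cases hac : G.Adj a c
  · rw [if_neg (fun h' => (h.1 h') hac), if_pos hac]; ring
  · rw [if_pos (h.2 hac), if_neg hac]; ring

omit [Fintype V] in
theorem virt_c (a b c : V) (hbc : b ≠ c) (hac : a ≠ c) (G : SimpleGraph V) :
    (if tmap a b c G c none = true then (1 : ℤ) else 0) = 1 - ind G a b := by
  have h : tmap a b c G c none = true ↔ ¬ G.Adj a b := by
    rw [tmap_none]
    constructor
    · rintro (⟨h, -⟩ | ⟨h, -⟩ | ⟨-, h⟩)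
      · exact absurd h.symm hac
      · exact absurd h.symm hbc
      · exact h
    · intro h; exact Or.inr (Or.inr ⟨rfl, h⟩)
  unfold ind
  by_cases hab : G.Adj a b
  · rw [if_neg (fun h' => (h.1 h') hab), if_pos hab]; ring
  · rw [if_pos (h.2 hab), if_neg hab]; ring

omit [Fintype V] in
theorem virt_out (a b c : V) (G : SimpleGraph V) (r : V) (hra : r ≠ a) (hrb : r ≠ b)
    (hrc : r ≠ c) : (if tmap a b c G r none = true then (1 : ℤ) else 0) = 0 := by
  have h : ¬ tmap a b c G r none = true := by
    rw [tmap_none]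
    rintro (⟨h, -⟩ | ⟨h, -⟩ | ⟨h, -⟩)
    · exact hra h
    · exact hrb h
    · exact hrc h
  rw [if_neg h]

theorem colSum_tmap_out (a b c : V) (G : SimpleGraph V) (x : V) (hxa : x ≠ a) (hxb : x ≠ b)
    (hxc : x ≠ c) [Fintype (G.neighborSet x)] :
    (colSum (tmap a b c G) (some x) : ℤ) = G.degree x := by
  rw [Vale.Agent.H90.colSum_eq_sum, degree_eq_sum]
  push_cast
  refine Finset.sum_congr rfl (fun r _ => ?_)
  rw [ind_symm]
  unfold ind
  by_cases h : G.Adj r x
  · rw [if_pos h, if_pos ((tmap_some a b c G r x).2 ⟨h, hxa, hxb, hxc⟩)]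
  · rw [if_neg h, if_neg (fun h' => h ((tmap_some a b c G r x).1 h').1)]

theorem colSum_tmap_in (a b c : V) (G : SimpleGraph V) (x : V) (hx : x = a ∨ x = b ∨ x = c) :
    colSum (tmap a b c G) (some x) = 0 := by
  rw [Vale.Agent.H90.colSum_eq_sum]
  apply Finset.sum_eq_zero
  intro r _
  rw [if_neg]
  intro h'
  have := (tmap_some a b c G r x).1 h'
  rcases hx with h | h | h
  · exact this.2.1 h
  · exact this.2.2.1 h
  · exact this.2.2.2 h

theorem colSum_tmap_none (a b c : V) (hab : a ≠ b) (hbc : b ≠ c) (hac : a ≠ c)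
    (G : SimpleGraph V) :
    (colSum (tmap a b c G) none : ℤ) = (1 - ind G b c) + (1 - ind G a c) + (1 - ind G a b) := by
  rw [Vale.Agent.H90.colSum_eq_sum]
  push_cast
  have hpt : ∀ r, (if tmap a b c G r none = true then (1 : ℤ) else 0)
      = (if r = a then (1 - ind G b c) else 0) + (if r = b then (1 - ind G a c) else 0)
        + (if r = c then (1 - ind G a b) else 0) := by
    intro r
    by_cases hra : r = a
    · subst hra
      rw [virt_a r b c hab hac G]
      simp [hab, hac]
    · by_cases hrb : r = b
      · subst hrb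
        rw [virt_b a r c hab hbc G]
        simp [hra, hbc]
      · by_cases hrc : r = c
        · subst hrc
          rw [virt_c a b r hbc hac G]
          simp [hra, hrb]
        · rw [virt_out a b c G r hra hrb hrc]
          simp [hra, hrb, hrc]
  rw [Finset.sum_congr rfl (fun r _ => hpt r)]
  simp only [Finset.sum_add_distrib, Finset.sum_ite_eq', Finset.mem_univ, if_true]

/-- the sum of the outside degrees of `a` and `b`, read along the outside vertices -/
theorem outDeg_add (a b c : V) (G : SimpleGraph V) :
    outDeg a b c G a + outDeg a b c G b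
      = ∑ x, (if (x ≠ a ∧ x ≠ b ∧ x ≠ c) then ind G x a + ind G x b else 0) := by
  unfold outDeg
  rw [← Finset.sum_add_distrib]
  refine Finset.sum_congr rfl (fun x _ => ?_)
  rw [ind_symm G x a, ind_symm G x b]
  unfold ind
  by_cases hx : (x ≠ a ∧ x ≠ b ∧ x ≠ c)
  · rw [if_pos hx]
    by_cases h1 : G.Adj a x <;> by_cases h2 : G.Adj b x <;> simp [h1, h2, hx]
  · rw [if_neg hx]
    rw [if_neg (fun h => hx h.2), if_neg (fun h => hx h.2)]
    ring

/-! ### The pair fibre and the row-pair fibre -/

omit [Fintype V] in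
/-- agreement off the pairs meeting `{a, b}`, in adjacency form -/
theorem agree_iff (a b : V) (G H : SimpleGraph V) :
    (∀ e, e ∉ EP a b → (e ∈ G.edgeSet ↔ e ∈ H.edgeSet)) ↔
      ∀ x y, x ≠ a → x ≠ b → y ≠ a → y ≠ b → (G.Adj x y ↔ H.Adj x y) := by
  constructor
  · intro h x y hxa hxb hya hyb
    have hne : s(x, y) ∉ EP a b := by
      simp only [EP, Set.mem_ofPred_eq, Sym2.mem_iff, not_or]
      exact ⟨⟨fun h' => hxa h'.symm, fun h' => hya h'.symm⟩,
        ⟨fun h' => hxb h'.symm, fun h' => hyb h'.symm⟩⟩
    have := h s(x, y) hne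
    rwa [mem_edgeSet, mem_edgeSet] at this
  · intro h e
    induction e using Sym2.ind with
    | _ x y =>
      intro he
      simp only [EP, Set.mem_ofPred_eq, Sym2.mem_iff, not_or] at he
      rw [mem_edgeSet, mem_edgeSet]
      exact h x y (fun h' => he.1.1 h'.symm) (fun h' => he.2.1 h'.symm)
        (fun h' => he.1.2 h'.symm) (fun h' => he.2.2 h'.symm)

theorem outDeg_congr (a b c : V) (G H : SimpleGraph V)
    (hag : ∀ x y, x ≠ a → x ≠ b → y ≠ a → y ≠ b → (G.Adj x y ↔ H.Adj x y))
    (r : V) (hra : r ≠ a) (hrb : r ≠ b) : outDeg a b c G r = outDeg a b c H r := by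
  unfold outDeg
  refine Finset.sum_congr rfl (fun x _ => ?_)
  have hiff : (G.Adj r x ∧ x ≠ a ∧ x ≠ b ∧ x ≠ c) ↔ (H.Adj r x ∧ x ≠ a ∧ x ≠ b ∧ x ≠ c) := by
    constructor
    · rintro ⟨h1, h2, h3, h4⟩
      exact ⟨(hag r x hra hrb h2 h3).1 h1, h2, h3, h4⟩
    · rintro ⟨h1, h2, h3, h4⟩
      exact ⟨(hag r x hra hrb h2 h3).2 h1, h2, h3, h4⟩
  by_cases h : (G.Adj r x ∧ x ≠ a ∧ x ≠ b ∧ x ≠ c)
  · rw [if_pos h, if_pos (hiff.1 h)]
  · rw [if_neg h, if_neg (fun h' => h (hiff.2 h'))]

theorem tmap_rel_mp (a b c : V) (hab : a ≠ b) (hbc : b ≠ c) (hac : a ≠ c)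
    (G H : SimpleGraph V) (h : RP a b G H) : RelP a b (tmap a b c G) (tmap a b c H) := by
  obtain ⟨hSD, hag0⟩ := h
  have hag := (agree_iff a b G H).1 hag0
  have hdeg : ∀ r, (G.degree r : ℤ) = H.degree r := fun r => by exact_mod_cast hSD r
  have d1 := outDeg_congr a b c G H hag
  have d2 : ∀ x, x ≠ a → x ≠ b → ind G x c = ind H x c := fun x hxa hxb =>
    (ind_eq_iff G H x c x c).2 (hag x c hxa hxb hac.symm hbc.symm)
  have d3 : ∀ r, r ≠ a → r ≠ b → ind G r a + ind G r b = ind H r a + ind H r b := by
    intro r hra hrb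
    have e1 := degree_split a b c hab hbc hac G r
    have e2 := degree_split a b c hab hbc hac H r
    have e3 := hdeg r
    have e4 := d1 r hra hrb
    have e5 := d2 r hra hrb
    linarith
  have d4 : outDeg a b c G a + outDeg a b c G b = outDeg a b c H a + outDeg a b c H b := by
    rw [outDeg_add, outDeg_add]
    refine Finset.sum_congr rfl (fun x _ => ?_)
    by_cases hx : (x ≠ a ∧ x ≠ b ∧ x ≠ c)
    · rw [if_pos hx, if_pos hx]
      exact d3 x hx.1 hx.2.1
    · rw [if_neg hx, if_neg hx]
  have d5 : ind G a c + ind G b c = ind H a c + ind H b c := by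
    have := d3 c hac.symm hbc.symm
    rw [ind_symm G c a, ind_symm G c b, ind_symm H c a, ind_symm H c b] at this
    exact this
  have sa := degree_split a b c hab hbc hac G a
  have sb := degree_split a b c hab hbc hac G b
  have sa' := degree_split a b c hab hbc hac H a
  have sb' := degree_split a b c hab hbc hac H b
  rw [ind_self] at sa sa'
  rw [ind_self, ind_symm _ b a] at sb sb'
  have d6 : ind G a b = ind H a b := by
    have e1 := hdeg a
    have e2 := hdeg b
    linarith
  have hab' : G.Adj a b ↔ H.Adj a b := (ind_eq_iff G H a b a b).1 d6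
  refine ⟨?_, ?_, ?_⟩
  · intro k hka hkb
    apply funext
    intro col
    apply Bool.eq_iff_iff.mpr
    cases col with
    | none =>
      rw [tmap_none, tmap_none]
      constructor
      · rintro (⟨h, -⟩ | ⟨h, -⟩ | ⟨h1, h2⟩)
        · exact absurd h hka
        · exact absurd h hkb
        · exact Or.inr (Or.inr ⟨h1, fun h' => h2 (hab'.2 h')⟩)
      · rintro (⟨h, -⟩ | ⟨h, -⟩ | ⟨h1, h2⟩)
        · exact absurd h hka
        · exact absurd h hkb
        · exact Or.inr (Or.inr ⟨h1, fun h' => h2 (hab'.1 h')⟩)
    | some x =>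
      rw [tmap_some, tmap_some]
      constructor
      · rintro ⟨h1, h2, h3, h4⟩
        exact ⟨(hag k x hka hkb h2 h3).1 h1, h2, h3, h4⟩
      · rintro ⟨h1, h2, h3, h4⟩
        exact ⟨(hag k x hka hkb h2 h3).2 h1, h2, h3, h4⟩
  · intro r
    have key : (rowSum (tmap a b c G) r : ℤ) = rowSum (tmap a b c H) r := by
      rw [rowSum_tmap, rowSum_tmap]
      by_cases hra : r = a
      · subst hra
        rw [virt_a r b c hab hac G, virt_a r b c hab hac H]
        have e1 := hdeg r
        linarith
      · by_cases hrb : r = b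
        · subst hrb
          rw [virt_b a r c hab hbc G, virt_b a r c hab hbc H]
          have e1 := hdeg r
          linarith
        · by_cases hrc : r = c
          · subst hrc
            rw [virt_c a b r hbc hac G, virt_c a b r hbc hac H]
            have e1 := d1 r hra hrb
            linarith
          · rw [virt_out a b c G r hra hrb hrc, virt_out a b c H r hra hrb hrc]
            have e1 := d1 r hra hrb
            linarith
    exact_mod_cast key
  · intro col
    cases col with
    | none =>
      have key : (colSum (tmap a b c G) none : ℤ) = colSum (tmap a b c H) none := by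
        rw [colSum_tmap_none a b c hab hbc hac G, colSum_tmap_none a b c hab hbc hac H]
        linarith
      exact_mod_cast key
    | some x =>
      by_cases hx : x = a ∨ x = b ∨ x = c
      · rw [colSum_tmap_in a b c G x hx, colSum_tmap_in a b c H x hx]
      · simp only [not_or] at hx
        have key : (colSum (tmap a b c G) (some x) : ℤ) = colSum (tmap a b c H) (some x) := by
          rw [colSum_tmap_out a b c G x hx.1 hx.2.1 hx.2.2,
            colSum_tmap_out a b c H x hx.1 hx.2.1 hx.2.2]
          exact hdeg x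
        exact_mod_cast key

theorem tmap_rel_mpr (a b c : V) (hab : a ≠ b) (hbc : b ≠ c) (hac : a ≠ c)
    (G H : SimpleGraph V) (h : RelP a b (tmap a b c G) (tmap a b c H)) : RP a b G H := by
  obtain ⟨hrows, hrow, hcol⟩ := h
  have e1 : ∀ k x, k ≠ a → k ≠ b → x ≠ a → x ≠ b → x ≠ c → (G.Adj k x ↔ H.Adj k x) := by
    intro k x hka hkb hxa hxb hxc
    have hk := congrFun (hrows k hka hkb) (some x)
    have h1 := tmap_some a b c G k x
    have h2 := tmap_some a b c H k x
    rw [hk] at h1
    constructor
    · intro hG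
      exact (h2.1 (h1.2 ⟨hG, hxa, hxb, hxc⟩)).1
    · intro hH
      exact (h1.1 (h2.2 ⟨hH, hxa, hxb, hxc⟩)).1
  have e6 : ind G a b = ind H a b := by
    have hk := congrFun (hrows c hac.symm hbc.symm) none
    have h1 := virt_c a b c hbc hac G
    have h2 := virt_c a b c hbc hac H
    rw [hk] at h1
    linarith
  have hag : ∀ x y, x ≠ a → x ≠ b → y ≠ a → y ≠ b → (G.Adj x y ↔ H.Adj x y) := by
    intro x y hxa hxb hya hyb
    by_cases hyc : y = c
    · subst hyc
      by_cases hxc : x = y
      · subst hxc
        constructor <;> intro h <;> exact absurd h (SimpleGraph.irrefl _)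
      · have := e1 y x hya hyb hxa hxb hxc
        constructor
        · intro h; exact (this.1 h.symm).symm
        · intro h; exact (this.2 h.symm).symm
    · exact e1 x y hxa hxb hya hyb hyc
  have d1 := outDeg_congr a b c G H hag
  have hcn : (colSum (tmap a b c G) none : ℤ) = colSum (tmap a b c H) none := by
    exact_mod_cast hcol none
  rw [colSum_tmap_none a b c hab hbc hac G, colSum_tmap_none a b c hab hbc hac H] at hcn
  refine ⟨?_, (agree_iff a b G H).2 hag⟩
  intro r
  have key : (G.degree r : ℤ) = H.degree r := by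
    have s1 := degree_split a b c hab hbc hac G r
    have s2 := degree_split a b c hab hbc hac H r
    have hr : (rowSum (tmap a b c G) r : ℤ) = rowSum (tmap a b c H) r := by
      exact_mod_cast hrow r
    rw [rowSum_tmap, rowSum_tmap] at hr
    by_cases hra : r = a
    · subst hra
      rw [virt_a r b c hab hac G, virt_a r b c hab hac H] at hr
      rw [ind_self] at s1 s2
      linarith
    · by_cases hrb : r = b
      · subst hrb
        rw [virt_b a r c hab hbc G, virt_b a r c hab hbc H] at hr
        rw [ind_self, ind_symm _ r a] at s1 s2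
        linarith
      · by_cases hrc : r = c
        · subst hrc
          rw [ind_self, ind_symm _ r a, ind_symm _ r b] at s1 s2
          have e2 := d1 r hra hrb
          linarith
        · have hc : (colSum (tmap a b c G) (some r) : ℤ) = colSum (tmap a b c H) (some r) := by
            exact_mod_cast hcol (some r)
          rw [colSum_tmap_out a b c G r hra hrb hrc, colSum_tmap_out a b c H r hra hrb hrc] at hc
          exact hc
  exact_mod_cast key

/-- **Fibre correspondence.** The pair fibre of `{a, b}` on graphs is the row-pair fibre of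
the rows `a, b` of the triple matrices. -/
theorem tmap_rel (a b c : V) (hab : a ≠ b) (hbc : b ≠ c) (hac : a ≠ c) (G H : SimpleGraph V) :
    RP a b G H ↔ RelP a b (tmap a b c G) (tmap a b c H) :=
  ⟨tmap_rel_mp a b c hab hbc hac G H, tmap_rel_mpr a b c hab hbc hac G H⟩

end Vale.Agent.H37.KTV
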